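import Vale.Agent.P284.H451.D.Sard
import Mathlib.MeasureTheory.Function.Jacobian
import Mathlib.Analysis.Calculus.InverseFunctionTheorem.ContDiff
import Mathlib.MeasureTheory.Constructions.Pi

/-!
# P284 (helper451), project D: null cones and entire maps

If `F : ℂ^R → ℂ^(R+1)` is entire and `[F]` is an immersion at one point, then `F z ∉ N` for almost all
`z`, for every null set `N` with `ℂ^* N ⊆ N`.
-/

open Set Filter Metric MeasureTheory
open scoped Topology ContDiff Manifold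

noncomputable section

namespace Vale.Agent.P284.H451.D

open Vale.Agent.P281.H64 (Cm)

/-- `(a, ξ) ↦ a F(z) + dF_z ξ` -/
def LF {R p : ℕ} (F : Cm R → Cm p) (z : Cm R) : (ℂ × Cm R) →L[ℂ] Cm p :=
  (ContinuousLinearMap.fst ℂ ℂ (Cm R)).smulRight (F z) +
    (fderiv ℂ F z).comp (ContinuousLinearMap.snd ℂ ℂ (Cm R))

theorem LF_apply {R p : ℕ} (F : Cm R → Cm p) (z : Cm R) (v : ℂ × Cm R) :
    LF F z v = v.1 • F z + fderiv ℂ F z v.2 := rfl

theorem LF_analytic {R p : ℕ} {F : Cm R → Cm p} (hF : ∀ z, AnalyticAt ℂ F z) (v : ℂ × Cm R)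
    (z : Cm R) : AnalyticAt ℂ (fun z => LF F z v) z := by
  have h1 : AnalyticAt ℂ (fun z => fderiv ℂ F z v.2) z :=
    ((ContinuousLinearMap.apply ℂ (Cm p) v.2).analyticAt _).comp (hF z).fderiv
  exact (analyticAt_const.smul (hF z)).add h1

/-- the set where `[F]` is not an immersion is null -/
theorem LF_ae {R p : ℕ} {F : Cm R → Cm p} (hF : ∀ z, AnalyticAt ℂ F z)
    (h0 : ∃ z, Function.Surjective (LF F z)) : ∀ᵐ z : Cm R, Function.Surjective (LF F z) := by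
  obtain ⟨z₀, hz₀⟩ := h0
  obtain ⟨ξ, hξ⟩ := (surj_iff_det _).1 hz₀
  have hg : AnalyticOnNhd ℂ (fun z => (Matrix.of fun i j => LF F z (ξ j) i).det) univ := by
    intro z _
    have h1 : ∀ i j, AnalyticAt ℂ (fun z => LF F z (ξ j) i) z := fun i j =>
      ((ContinuousLinearMap.proj (R := ℂ) (φ := fun _ : Fin p => ℂ) i).analyticAt _).comp
        (LF_analytic hF (ξ j) z)
    have h3 : (fun z => (Matrix.of fun i j => LF F z (ξ j) i).det) = fun z =>
        ∑ σ : Equiv.Perm (Fin p), (Equiv.Perm.sign σ : ℤ) • ∏ i, LF F z (ξ i) (σ i) := by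
      funext w
      rw [Matrix.det_apply]
      rfl
    rw [h3]
    refine Finset.analyticAt_fun_sum _ fun σ _ => ?_
    have h4 : AnalyticAt ℂ (fun z => ∏ i, LF F z (ξ i) (σ i)) z :=
      Finset.analyticAt_fun_prod _ fun i _ => h1 _ _
    have h5 : (fun z => (Equiv.Perm.sign σ : ℤ) • ∏ i, LF F z (ξ i) (σ i)) = fun z =>
        (((Equiv.Perm.sign σ : ℤ) : ℂ)) * ∏ i, LF F z (ξ i) (σ i) := by
      funext w
      rw [zsmul_eq_mul]
    rw [h5]
    exact analyticAt_const.mul h4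
  have h1 := Vale.Agent.P285.H16.null_zero isOpen_univ convex_univ hg ⟨z₀, mem_univ _, hξ⟩
  refine measure_mono_null (fun z hz => ?_) h1
  refine ⟨mem_univ _, ?_⟩
  by_contra hne
  exact hz ((surj_iff_det _).2 ⟨ξ, hne⟩)

/-- the preimage of a null set under a map with bijective derivatives -/
theorem preimage_null {V : Type} [NormedAddCommGroup V] [NormedSpace ℂ V] [FiniteDimensional ℂ V]
    [MeasurableSpace V] [BorelSpace V] (μ : Measure V) [μ.IsAddHaarMeasure] {G : V → V} {S : Set V}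
    (hG : ∀ v ∈ S, AnalyticAt ℂ G v ∧ Function.Surjective (fderiv ℂ G v)) {N : Set V}
    (hN : μ N = 0) : μ (S ∩ G ⁻¹' N) = 0 := by
  have : CompleteSpace V := FiniteDimensional.complete ℂ V
  refine measure_null_of_locally_null _ fun v hv => ?_
  obtain ⟨hGa, hGs⟩ := hG v hv.1
  have hinj : Function.Injective (fderiv ℂ G v) :=
    (LinearMap.injective_iff_surjective (f := (fderiv ℂ G v : V →ₗ[ℂ] V))).2 hGs
  let e : V ≃L[ℂ] V := ContinuousLinearEquiv.ofBijective (fderiv ℂ G v)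
    (LinearMap.ker_eq_bot.2 hinj) (LinearMap.range_eq_top.2 hGs)
  have hst : HasStrictFDerivAt G (e : V →L[ℂ] V) v := by
    have := hGa.hasStrictFDerivAt
    exact this
  have hinv : AnalyticAt ℂ (hst.localInverse G e v) (G v) := by
    have h1 : ContDiffAt ℂ ω G v := hGa.contDiffAt
    have h2 := h1.to_localInverse (f' := e) hst.hasFDerivAt (by simp)
    exact h2.analyticAt
  have hleft : ∀ᶠ w in 𝓝 v, hst.localInverse G e v (G w) = w := hst.eventually_left_inverse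
  obtain ⟨W, hW, hWo, hvW⟩ := _root_.eventually_nhds_iff.1 hinv.eventually_analyticAt
  have h1 : μ (hst.localInverse G e v '' (N ∩ W)) = 0 := by
    refine addHaar_image_eq_zero_of_differentiableOn_of_addHaar_eq_zero μ (f := _) ?_
      (measure_mono_null inter_subset_left hN)
    intro w hw
    exact ((hW w hw.2).differentiableAt.restrictScalars ℝ).differentiableWithinAt
  refine ⟨(S ∩ G ⁻¹' N) ∩ ({w | hst.localInverse G e v (G w) = w} ∩ G ⁻¹' W),
    inter_mem self_mem_nhdsWithin (mem_nhdsWithin_of_mem_nhds (inter_mem hleft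
      (hGa.continuousAt.preimage_mem_nhds (hWo.mem_nhds hvW)))), ?_⟩
  refine measure_mono_null ?_ h1
  rintro w ⟨⟨-, hwN⟩, hwl, hwW⟩
  exact ⟨G w, ⟨hwN, hwW⟩, hwl⟩

/-- **null cones**: `F z ∉ N` for almost all `z` -/
theorem cone_ae {R : ℕ} {F : Cm R → Cm (R + 1)} (hF : ∀ z, AnalyticAt ℂ F z)
    (h0 : ∃ z, Function.Surjective (LF F z)) {N : Set (Cm (R + 1))} (hN : volume N = 0)
    (hinv : ∀ μ : ℂ, μ ≠ 0 → ∀ Z ∈ N, μ • Z ∈ N) : ∀ᵐ z : Cm R, F z ∉ N := by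
  -- the map `(μ, z) ↦ μ F(z)`
  set tl : Cm (R + 1) →L[ℂ] Cm R :=
    ContinuousLinearMap.pi fun i => ContinuousLinearMap.proj i.succ with htl
  set G : Cm (R + 1) → Cm (R + 1) := fun v => v 0 • F (tl v) with hG
  have hGd : ∀ v, HasFDerivAt G (v 0 • (fderiv ℂ F (tl v)).comp tl +
      (ContinuousLinearMap.proj (R := ℂ) (φ := fun _ : Fin (R + 1) => ℂ) 0).smulRight
        (F (tl v))) v := by
    intro v
    have h1 : HasFDerivAt (fun v : Cm (R + 1) => F (tl v)) ((fderiv ℂ F (tl v)).comp tl) v :=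
      (hF _).differentiableAt.hasFDerivAt.comp v tl.hasFDerivAt
    have h2 : HasFDerivAt (fun v : Cm (R + 1) => v 0)
        (ContinuousLinearMap.proj (R := ℂ) (φ := fun _ : Fin (R + 1) => ℂ) 0) v :=
      (ContinuousLinearMap.proj (R := ℂ) (φ := fun _ : Fin (R + 1) => ℂ) 0).hasFDerivAt
    exact h2.smul h1
  have hGa : ∀ v, AnalyticAt ℂ G v := by
    intro v
    have h1 : AnalyticAt ℂ (fun v : Cm (R + 1) => F (tl v)) v :=
      AnalyticAt.fun_comp (g := F) (hF _) (tl.analyticAt v)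
    have h2 : AnalyticAt ℂ (fun v : Cm (R + 1) => v 0) v :=
      (ContinuousLinearMap.proj (R := ℂ) (φ := fun _ : Fin (R + 1) => ℂ) 0).analyticAt v
    exact h2.smul h1
  set S : Set (Cm (R + 1)) := {v | v 0 ≠ 0 ∧ Function.Surjective (LF F (tl v))} with hS
  have hSs : ∀ v ∈ S, AnalyticAt ℂ G v ∧ Function.Surjective (fderiv ℂ G v) := by
    rintro v ⟨hv0, hv⟩
    refine ⟨hGa v, fun y => ?_⟩
    obtain ⟨⟨a, ξ⟩, ha⟩ := hv y
    rw [LF_apply] at ha
    refine ⟨Fin.cons a ((v 0)⁻¹ • ξ), ?_⟩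
    rw [(hGd v).fderiv]
    have h1 : tl (Fin.cons a ((v 0)⁻¹ • ξ)) = (v 0)⁻¹ • ξ := by
      funext i
      simp [htl]
    have h2 : ((Fin.cons a ((v 0)⁻¹ • ξ) : Cm (R + 1))) 0 = a := by simp
    show v 0 • fderiv ℂ F (tl v) (tl (Fin.cons a ((v 0)⁻¹ • ξ))) +
      ((Fin.cons a ((v 0)⁻¹ • ξ) : Cm (R + 1))) 0 • F (tl v) = y
    rw [h1, h2, map_smul, smul_smul, mul_inv_cancel₀ hv0, one_smul, ← ha]
    exact add_comm (fderiv ℂ F (tl v) ξ) (a • F (tl v))
  have h1 : volume (S ∩ G ⁻¹' N) = 0 := preimage_null volume hSs hN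
  -- Fubini
  set B : Set (Cm R) := {z | F z ∈ N ∧ Function.Surjective (LF F z)} with hB
  have hmp := volume_preserving_piFinSuccAbove (fun _ : Fin (R + 1) => ℂ) 0
  have h2 : (volume : Measure (ℂ × Cm R)) ({μ : ℂ | μ ≠ 0} ×ˢ B) = 0 := by
    have h3 : (MeasurableEquiv.piFinSuccAbove (fun _ : Fin (R + 1) => ℂ) 0) ⁻¹'
        ({μ : ℂ | μ ≠ 0} ×ˢ B) ⊆ S ∩ G ⁻¹' N := by
      rintro v ⟨hv1, hv2, hv3⟩
      have e1 : (MeasurableEquiv.piFinSuccAbove (fun _ : Fin (R + 1) => ℂ) 0 v).1 = v 0 := rfl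
      have e2 : (MeasurableEquiv.piFinSuccAbove (fun _ : Fin (R + 1) => ℂ) 0 v).2 = tl v := by
        rfl
      rw [e2] at hv2 hv3
      exact ⟨⟨hv1, hv3⟩, hinv _ hv1 _ hv2⟩
    rw [← hmp.measure_preimage_equiv]
    exact measure_mono_null h3 h1
  have h4 : volume B = 0 := by
    have h5 : (volume : Measure (ℂ × Cm R)) ({μ : ℂ | μ ≠ 0} ×ˢ B) =
        volume {μ : ℂ | μ ≠ 0} * volume B := Measure.prod_prod _ _
    rw [h5, mul_eq_zero] at h2
    refine h2.resolve_left fun h6 => ?_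
    have h7 : IsOpen {μ : ℂ | μ ≠ 0} := isOpen_ne
    exact (h7.measure_pos volume ⟨1, one_ne_zero⟩).ne' h6
  filter_upwards [LF_ae hF h0, measure_eq_zero_iff_ae_notMem.1 h4] with z g1 g2 g3
  exact g2 ⟨g3, g1⟩

/-- **Sard for cones**: for almost every `z`, at all `(x, l)` with `l • s x = F z ≠ 0` the map
`(a, ξ) ↦ a s(x) + ds_x ξ` is onto. -/
theorem cone_crit_ae {R n : ℕ} {F : Cm R → Cm (R + 1)} (hF : ∀ z, AnalyticAt ℂ F z)
    (h0 : ∃ z, Function.Surjective (LF F z)) {ι : Type} [Countable ι] {U : ι → Set (Cm n)}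
    (hU : ∀ i, IsOpen (U i)) {s : ι → Cm n → Cm (R + 1)}
    (hs : ∀ i, ∀ x ∈ U i, AnalyticAt ℂ (s i) x) :
    ∀ᵐ z : Cm R, ∀ i, ∀ x ∈ U i, ∀ l : ℂ, l • s i x = F z → F z ≠ 0 →
      Function.Surjective (LF (s i) x) := by
  set N : Set (Cm (R + 1)) := {Z | ∃ i, ∃ x ∈ U i, ∃ l : ℂ, l ≠ 0 ∧ l • s i x = Z ∧
    ¬ Function.Surjective (LF (s i) x)} with hN
  have hinv : ∀ μ : ℂ, μ ≠ 0 → ∀ Z ∈ N, μ • Z ∈ N := by
    rintro μ hμ _ ⟨i, x, hx, l, hl, rfl, hns⟩
    exact ⟨i, x, hx, μ * l, mul_ne_zero hμ hl, by rw [mul_smul], hns⟩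
  have hnull : volume N = 0 := by
    have h1 : N ⊆ ⋃ i, (fun v : Cm n × ℂ => v.2 • s i v.1) '' {v | v ∈ U i ×ˢ (univ : Set ℂ) ∧
        ¬ Function.Surjective (fderiv ℂ (fun v : Cm n × ℂ => v.2 • s i v.1) v)} := by
      rintro _ ⟨i, x, hx, l, hl, rfl, hns⟩
      refine mem_iUnion.2 ⟨i, (x, l), ⟨⟨hx, mem_univ _⟩, fun hs' => hns ?_⟩, rfl⟩
      have h2 : HasFDerivAt (fun v : Cm n × ℂ => v.2 • s i v.1)
          (l • ((fderiv ℂ (s i) x).comp (ContinuousLinearMap.fst ℂ (Cm n) ℂ)) +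
            (ContinuousLinearMap.snd ℂ (Cm n) ℂ).smulRight (s i x)) (x, l) := by
        have h3 : HasFDerivAt (fun v : Cm n × ℂ => s i v.1)
            ((fderiv ℂ (s i) x).comp (ContinuousLinearMap.fst ℂ (Cm n) ℂ)) (x, l) :=
          (hs i x hx).differentiableAt.hasFDerivAt.comp (x, l)
            (ContinuousLinearMap.fst ℂ (Cm n) ℂ).hasFDerivAt
        have h4 : HasFDerivAt (fun v : Cm n × ℂ => v.2) (ContinuousLinearMap.snd ℂ (Cm n) ℂ)
            (x, l) := (ContinuousLinearMap.snd ℂ (Cm n) ℂ).hasFDerivAt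
        exact h4.smul h3
      rw [h2.fderiv] at hs'
      intro y
      obtain ⟨⟨ζ, a⟩, hζ⟩ := hs' y
      refine ⟨(a, l • ζ), ?_⟩
      rw [LF_apply]
      simp only [map_smul]
      rw [← hζ]
      exact add_comm (a • s i x) (l • fderiv ℂ (s i) x ζ)
    refine measure_mono_null h1 (measure_iUnion_null fun i => ?_)
    refine sard ((hU i).prod isOpen_univ) (T := fun v : Cm n × ℂ => v.2 • s i v.1) ?_
    rintro ⟨x, l⟩ ⟨hx, -⟩
    have h3 : AnalyticAt ℂ (fun v : Cm n × ℂ => s i v.1) (x, l) :=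
      AnalyticAt.fun_comp (g := s i) (hs i x hx) ((ContinuousLinearMap.fst ℂ (Cm n) ℂ).analyticAt _)
    exact ((ContinuousLinearMap.snd ℂ (Cm n) ℂ).analyticAt _).smul h3
  filter_upwards [cone_ae hF h0 hnull hinv] with z hz i x hx l hl hF0
  by_contra hns
  refine hz ⟨i, x, hx, l, ?_, hl, hns⟩
  rintro rfl
  rw [zero_smul] at hl
  exact hF0 hl.symm

end Vale.Agent.P284.H451.D
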