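import Vale.Agent.P284.H451.D.Lse
import Vale.Agent.P284.H661.D.Spec
import Vale.Agent.P284.H366.D.C0
import Vale.Agent.P284.H608.D.Dens

/-!
# P284, project D (helper451), E1b: the lower bound of `K` near the leaf
-/

open scoped Manifold ContDiff Topology ComplexOrder ComplexConjugate Matrix
open Filter Set MeasureTheory

set_option linter.all false

noncomputable section

namespace Vale.Agent.P284.H451.D

open Vale.Agent.P272.K Vale.Agent.P285.H231.PB

section flat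
variable {N : ℕ} {p : Cm N}

/-- Lemma C: the logarithm of a sum of two functions -/
theorem log_add_low {u v : Cm N → ℝ} {B : Matrix (Fin N) (Fin N) ℂ} (hu : ContDiffAt ℝ 2 u p)
    (hv : ContDiffAt ℝ 2 v p) (hu0 : 0 < u p) (hv0 : 0 < v p)
    (hB : (cHess (fun y => Real.log (v y)) p + B).PosSemidef) :
    (cHess (fun y => Real.log (u y + v y)) p + B -
      (u p / (u p + v p)) • (cHess (fun y => Real.log (u y)) p + B)).PosSemidef := by
  set F : Bool → Cm N → ℂ := fun _ _ => 1 with hF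
  set φ : Bool → Cm N → ℝ := fun b y => if b then Real.log (u y) else Real.log (v y) with hφ
  have hφc : ∀ b, ContDiffAt ℝ 2 (φ b) p := by
    intro b
    cases b
    · simpa [hφ] using hv.log hv0.ne'
    · simpa [hφ] using hu.log hu0.ne'
  have h1 := lse_eq (F := F) (φ := φ) B (fun _ => contDiffAt_const) hφc ⟨true, one_ne_zero⟩
  have e1 : (fun y => Real.log (∑ a, ‖F a y‖ ^ 2 * Real.exp (φ a y))) =ᶠ[𝓝 p]
      fun y => Real.log (u y + v y) := by
    filter_upwards [hu.continuousAt.eventually_const_lt hu0,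
      hv.continuousAt.eventually_const_lt hv0] with y h1 h2
    simp [hF, hφ, Real.exp_log h1, Real.exp_log h2]
  have e2 : ∑ a, ‖F a p‖ ^ 2 * Real.exp (φ a p) = u p + v p := by
    simp [hF, hφ, Real.exp_log hu0, Real.exp_log hv0]
  rw [C2.cHess_congr e1, e2] at h1
  rw [h1]
  have e3 : ∑ a, ((u p + v p)⁻¹ * (‖F a p‖ ^ 2 * Real.exp (φ a p))) • (cHess (φ a) p + B) =
      (u p / (u p + v p)) • (cHess (fun y => Real.log (u y)) p + B) +
      (v p / (u p + v p)) • (cHess (fun y => Real.log (v y)) p + B) := by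
    rw [Fintype.sum_bool]
    simp only [hF, hφ, if_true, Bool.false_eq_true, if_false, norm_one, one_pow, one_mul,
      Real.exp_log hu0, Real.exp_log hv0]
    rw [div_eq_inv_mul, div_eq_inv_mul]
  rw [e3]
  have e4 : ∀ S T V : Matrix (Fin N) (Fin N) ℂ, S + (T + V) - T = S + V := by
    intro S T V; abel
  rw [e4]
  refine Matrix.PosSemidef.add ?_ (hB.smul (by positivity))
  refine Matrix.PosSemidef.smul (Matrix.posSemidef_sum _ fun a _ =>
      Matrix.posSemidef_sum _ fun b _ => ?_) (by positivity)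
  exact (Matrix.posSemidef_vecMulVec_self_star _).smul (by positivity)

variable {R : ℕ} {σ T : Fin (R + 1) → Cm N → ℂ} {ϕ : Cm N → ℝ}

/-- `|σ ∧ T|² + ε |σ|² |T|²` -/
def M1 (ε : ℝ) (σ T : Fin (R + 1) → Cm N → ℂ) (y : Cm N) : ℝ :=
  (1 / 2) * ∑ a, ∑ b, ‖σ a y * T b y - σ b y * T a y‖ ^ 2 +
    ε * (∑ a, ‖σ a y‖ ^ 2) * ∑ a, ‖T a y‖ ^ 2

/-- the family of the components -/
def GA (ε : ℝ) (σ T : Fin (R + 1) → Cm N → ℂ) :
    ((Fin (R + 1) × Fin (R + 1)) ⊕ (Fin (R + 1) × Fin (R + 1))) → Cm N → ℂ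
  | Sum.inl c, y => ((Real.sqrt 2)⁻¹ : ℝ) * (σ c.1 y * T c.2 y - σ c.2 y * T c.1 y)
  | Sum.inr c, y => (Real.sqrt ε : ℝ) * (σ c.1 y * T c.2 y)

theorem GA_sum {ε : ℝ} (hε : 0 ≤ ε) (y : Cm N) (t : ℝ) :
    ∑ c, ‖GA ε σ T c y‖ ^ 2 * t = M1 ε σ T y * t := by
  rw [Fintype.sum_sum_type]
  have h2 : (Real.sqrt 2)⁻¹ ^ 2 = (1 / 2 : ℝ) := by
    rw [inv_pow, Real.sq_sqrt (by norm_num)]; norm_num
  have e1 : ∑ c : Fin (R + 1) × Fin (R + 1), ‖GA ε σ T (Sum.inl c) y‖ ^ 2 * t =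
      ((1 / 2) * ∑ a, ∑ b, ‖σ a y * T b y - σ b y * T a y‖ ^ 2) * t := by
    rw [Fintype.sum_prod_type, Finset.mul_sum, Finset.sum_mul]
    refine Finset.sum_congr rfl fun a _ => ?_
    rw [Finset.mul_sum, Finset.sum_mul]
    refine Finset.sum_congr rfl fun b _ => ?_
    simp only [GA]
    rw [norm_mul, mul_pow, Complex.norm_real, Real.norm_eq_abs, sq_abs, h2]
  have e2 : ∑ c : Fin (R + 1) × Fin (R + 1), ‖GA ε σ T (Sum.inr c) y‖ ^ 2 * t =
      (ε * (∑ a, ‖σ a y‖ ^ 2) * ∑ a, ‖T a y‖ ^ 2) * t := by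
    rw [Fintype.sum_prod_type, mul_assoc ε, Finset.sum_mul_sum, Finset.mul_sum, Finset.sum_mul]
    refine Finset.sum_congr rfl fun a _ => ?_
    rw [Finset.mul_sum, Finset.sum_mul]
    refine Finset.sum_congr rfl fun b _ => ?_
    simp only [GA]
    rw [norm_mul, mul_pow, Complex.norm_real, Real.norm_eq_abs, sq_abs, Real.sq_sqrt hε, norm_mul,
      mul_pow]
  rw [e1, e2, M1, add_mul]

theorem GA_an {ε : ℝ} (hσ : ∀ a, ContDiffAt ℂ ω (σ a) p) (hT : ∀ a, ContDiffAt ℂ ω (T a) p)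
    (c : (Fin (R + 1) × Fin (R + 1)) ⊕ (Fin (R + 1) × Fin (R + 1))) :
    ContDiffAt ℂ ω (GA ε σ T c) p := by
  rcases c with c | c
  · exact contDiffAt_const.mul (((hσ _).mul (hT _)).sub ((hσ _).mul (hT _)))
  · exact contDiffAt_const.mul ((hσ _).mul (hT _))

/-- the forms `d(T_b/T_{a₀} - σ_b/σ_{a₀})` -/
def ew (σ T : Fin (R + 1) → Cm N → ℂ) (a₀ : Fin (R + 1)) (p : Cm N) (b : Fin R) : Cm N :=
  fun l => dz l (fun y => T (a₀.succAbove b) y / T a₀ y - σ (a₀.succAbove b) y / σ a₀ y) p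

theorem vmv_smul (κ : ℂ) (v : Cm N) : Matrix.vecMulVec (κ • v) (star (κ • v)) =
    (‖κ‖ ^ 2) • Matrix.vecMulVec v (star v) := by
  ext i j
  rw [Matrix.vecMulVec_apply, Matrix.smul_apply, Matrix.vecMulVec_apply, Complex.real_smul]
  simp only [Pi.smul_apply, Pi.star_apply, smul_eq_mul, RCLike.star_def, map_mul]
  rw [show ((‖κ‖ ^ 2 : ℝ) : ℂ) = κ * (starRingEnd ℂ) κ by
    rw [Complex.mul_conj, Complex.normSq_eq_norm_sq]]
  ring

theorem dz_div' {f g : Cm N → ℂ} (hf : ContDiffAt ℂ ω f p) (hg : ContDiffAt ℂ ω g p)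
    (h0 : g p ≠ 0) (l : Fin N) : dz l (fun y => f y / g y) p =
      (dz l f p * g p - f p * dz l g p) / g p ^ 2 := by
  have hq : DifferentiableAt ℂ (fun y => f y / g y) p :=
    (ContDiffAt.div hf hg h0).differentiableAt (by simp)
  have hgd : DifferentiableAt ℂ g p := hg.differentiableAt (by simp)
  have h1 : HasFDerivAt (fun y => f y / g y * g y) ((f p / g p) • fderiv ℂ g p +
      g p • fderiv ℂ (fun y => f y / g y) p) p := hq.hasFDerivAt.mul hgd.hasFDerivAt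
  have h2 : (fun y => f y / g y * g y) =ᶠ[𝓝 p] f := by
    filter_upwards [hg.continuousAt.eventually_ne h0] with y hy
    rw [div_mul_cancel₀ _ hy]
  have h3 : dz l f p = f p / g p * dz l g p + g p * dz l (fun y => f y / g y) p := by
    rw [← dz_congr h2, dz_of_holo h1.differentiableAt, h1.fderiv, dz_of_holo hgd, dz_of_holo hq]
    rfl
  rw [h3]
  field_simp
  ring

/-- the Wronskian of `σ_0 T_0` and `σ_0 T_b - σ_b T_0` -/
theorem wron {a₀ : Fin (R + 1)} (hσ : ∀ a, ContDiffAt ℂ ω (σ a) p)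
    (hT : ∀ a, ContDiffAt ℂ ω (T a) p) (hs : σ a₀ p ≠ 0) (ht : T a₀ p ≠ 0) (α β : ℂ) (b : Fin R)
    {G H : Cm N → ℂ} (hG : G = fun y => α * (σ a₀ y * T a₀ y))
    (hH : H = fun y => β * (σ a₀ y * T (a₀.succAbove b) y - σ (a₀.succAbove b) y * T a₀ y)) :
    (fun l => G p * dz l H p - H p * dz l G p) =
      (α * β * (σ a₀ p * T a₀ p) ^ 2) • ew σ T a₀ p b := by
  have dσ : ∀ a, DifferentiableAt ℂ (σ a) p := fun a => (hσ a).differentiableAt (by simp)
  have dT : ∀ a, DifferentiableAt ℂ (T a) p := fun a => (hT a).differentiableAt (by simp)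
  have rσ : ∀ a, DifferentiableAt ℝ (σ a) p := fun a => (dσ a).restrictScalars ℝ
  have rT : ∀ a, DifferentiableAt ℝ (T a) p := fun a => (dT a).restrictScalars ℝ
  funext l
  have e1 : dz l G p = α * (dz l (σ a₀) p * T a₀ p + σ a₀ p * dz l (T a₀) p) := by
    have h1 : HasFDerivAt (fun y => α * (σ a₀ y * T a₀ y))
        (α • (σ a₀ p • fderiv ℂ (T a₀) p + T a₀ p • fderiv ℂ (σ a₀) p)) p :=
      ((dσ a₀).hasFDerivAt.mul (dT a₀).hasFDerivAt).const_mul α
    rw [hG, dz_of_holo h1.differentiableAt, h1.fderiv, dz_of_holo (dσ a₀), dz_of_holo (dT a₀)]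
    simp only [smul_apply, add_apply, smul_eq_mul]
    ring
  have e2 : dz l H p = β * ((dz l (σ a₀) p * T (a₀.succAbove b) p +
      σ a₀ p * dz l (T (a₀.succAbove b)) p) - (dz l (σ (a₀.succAbove b)) p * T a₀ p +
      σ (a₀.succAbove b) p * dz l (T a₀) p)) := by
    have h1 : HasFDerivAt (fun y => β * (σ a₀ y * T (a₀.succAbove b) y -
        σ (a₀.succAbove b) y * T a₀ y)) (β • ((σ a₀ p • fderiv ℂ (T (a₀.succAbove b)) p +
        T (a₀.succAbove b) p • fderiv ℂ (σ a₀) p) - (σ (a₀.succAbove b) p • fderiv ℂ (T a₀) p +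
        T a₀ p • fderiv ℂ (σ (a₀.succAbove b)) p))) p :=
      (((dσ a₀).hasFDerivAt.mul (dT _).hasFDerivAt).sub
        ((dσ _).hasFDerivAt.mul (dT a₀).hasFDerivAt)).const_mul β
    rw [hH, dz_of_holo h1.differentiableAt, h1.fderiv, dz_of_holo (dσ _), dz_of_holo (dT _),
      dz_of_holo (dσ _), dz_of_holo (dT _)]
    simp only [smul_apply, add_apply, sub_apply, smul_eq_mul]
    ring
  have e3 : ew σ T a₀ p b l =
      (dz l (T (a₀.succAbove b)) p * T a₀ p - T (a₀.succAbove b) p * dz l (T a₀) p) / T a₀ p ^ 2 -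
      (dz l (σ (a₀.succAbove b)) p * σ a₀ p - σ (a₀.succAbove b) p * dz l (σ a₀) p) /
        σ a₀ p ^ 2 := by
    have q1 : DifferentiableAt ℂ (fun y => T (a₀.succAbove b) y / T a₀ y) p :=
      (ContDiffAt.div (hT _) (hT a₀) ht).differentiableAt (by simp)
    have q2 : DifferentiableAt ℂ (fun y => σ (a₀.succAbove b) y / σ a₀ y) p :=
      (ContDiffAt.div (hσ _) (hσ a₀) hs).differentiableAt (by simp)
    have h1 := q1.hasFDerivAt.sub q2.hasFDerivAt
    have h2 : HasFDerivAt (fun y => T (a₀.succAbove b) y / T a₀ y -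
      σ (a₀.succAbove b) y / σ a₀ y) _ p := h1
    rw [ew, dz_of_holo h2.differentiableAt, h2.fderiv, sub_apply,
      ← dz_div' (hT _) (hT a₀) ht, ← dz_div' (hσ _) (hσ a₀) hs,
      dz_of_holo q1, dz_of_holo q2]
  rw [Pi.smul_apply, smul_eq_mul, e1, e2, e3, hG, hH]
  field_simp
  ring

/-- Lemma A -/
theorem log_M1_low {ε : ℝ} (hε : 0 < ε) (hσ : ∀ a, ContDiffAt ℂ ω (σ a) p)
    (hT : ∀ a, ContDiffAt ℂ ω (T a) p) (hϕ : ContDiffAt ℝ 2 ϕ p)
    {B : Matrix (Fin N) (Fin N) ℂ} (hB : (cHess ϕ p + B).PosSemidef) {a₀ : Fin (R + 1)}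
    (hs : σ a₀ p ≠ 0) (ht : T a₀ p ≠ 0) :
    (cHess (fun y => Real.log (M1 ε σ T y * Real.exp (ϕ y))) p + B -
      (ε * (‖σ a₀ p‖ ^ 2 * ‖T a₀ p‖ ^ 2) ^ 2 / M1 ε σ T p ^ 2) •
        ∑ b, Matrix.vecMulVec (ew σ T a₀ p b) (star (ew σ T a₀ p b))).PosSemidef := by
  classical
  have hM1 : 0 < M1 ε σ T p := by
    have h1 : 0 < ∑ a, ‖σ a p‖ ^ 2 :=
      Finset.sum_pos' (fun a _ => by positivity) ⟨a₀, Finset.mem_univ _, by positivity⟩
    have h2 : 0 < ∑ a, ‖T a p‖ ^ 2 :=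
      Finset.sum_pos' (fun a _ => by positivity) ⟨a₀, Finset.mem_univ _, by positivity⟩
    unfold M1
    have h3 : 0 ≤ ∑ a, ∑ b, ‖σ a p * T b p - σ b p * T a p‖ ^ 2 :=
      Finset.sum_nonneg fun a _ => Finset.sum_nonneg fun b _ => by positivity
    positivity
  set bb : Fin R × Bool → (Fin (R + 1) × Fin (R + 1)) ⊕ (Fin (R + 1) × Fin (R + 1)) :=
    fun i => if i.2 then Sum.inl (a₀, a₀.succAbove i.1) else Sum.inl (a₀.succAbove i.1, a₀)
    with hbb
  have hinj : Function.Injective bb := by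
    rintro ⟨i, c⟩ ⟨j, d⟩ h
    cases c <;> cases d <;> simp [hbb] at h ⊢
    · exact h
    · exact h
  have hne : ∀ i, bb i ≠ Sum.inr (a₀, a₀) := by
    rintro ⟨i, c⟩
    cases c <;> simp [hbb]
  have hG0 : GA ε σ T (Sum.inr (a₀, a₀)) p ≠ 0 := by
    simp only [GA]
    have : Real.sqrt ε ≠ 0 := (Real.sqrt_pos.2 hε).ne'
    exact mul_ne_zero (by exact_mod_cast this) (mul_ne_zero hs ht)
  have key := lse_lower (F := GA ε σ T) (φ := fun _ => ϕ) (B := B) (GA_an hσ hT) (fun _ => hϕ)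
    (fun _ => hB) (Sum.inr (a₀, a₀)) bb hinj hne hG0 (c := fun _ => (M1 ε σ T p ^ 2)⁻¹) (by
      intro i
      rw [GA_sum hε.le, mul_pow]
      have := Real.exp_pos (ϕ p)
      apply le_of_eq
      field_simp)
  have e0 : (fun y => Real.log (∑ a, ‖GA ε σ T a y‖ ^ 2 * Real.exp (ϕ y))) =
      fun y => Real.log (M1 ε σ T y * Real.exp (ϕ y)) := by
    funext y; rw [GA_sum hε.le]
  rw [e0] at key
  convert key using 2
  -- the Wronskians
  have hq : ∀ i : Fin R × Bool, Matrix.vecMulVec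
      (qv (GA ε σ T) (fun _ => ϕ) p (Sum.inr (a₀, a₀)) (bb i))
      (star (qv (GA ε σ T) (fun _ => ϕ) p (Sum.inr (a₀, a₀)) (bb i))) =
      (ε / 2 * (‖σ a₀ p‖ ^ 2 * ‖T a₀ p‖ ^ 2) ^ 2) •
        Matrix.vecMulVec (ew σ T a₀ p i.1) (star (ew σ T a₀ p i.1)) := by
    rintro ⟨b, c⟩
    have h1 : ∀ d, qv (GA ε σ T) (fun _ => ϕ) p (Sum.inr (a₀, a₀)) d =
        fun l => GA ε σ T (Sum.inr (a₀, a₀)) p * dz l (GA ε σ T d) p -
          GA ε σ T d p * dz l (GA ε σ T (Sum.inr (a₀, a₀))) p := by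
      intro d
      funext l
      simp only [qv, Pv]
      ring
    obtain ⟨β, hβ, hβ2⟩ : ∃ β : ℂ, ‖β‖ ^ 2 = 1 / 2 ∧ GA ε σ T (bb (b, c)) =
        fun y => β * (σ a₀ y * T (a₀.succAbove b) y - σ (a₀.succAbove b) y * T a₀ y) := by
      have h2 : (Real.sqrt 2)⁻¹ ^ 2 = (1 / 2 : ℝ) := by
        rw [inv_pow, Real.sq_sqrt (by norm_num)]; norm_num
      cases c
      · refine ⟨-((Real.sqrt 2)⁻¹ : ℝ), ?_, ?_⟩
        · rw [norm_neg, Complex.norm_real, Real.norm_eq_abs, sq_abs, h2]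
        · funext y
          simp only [hbb, Bool.false_eq_true, if_false, GA]
          ring
      · refine ⟨((Real.sqrt 2)⁻¹ : ℝ), ?_, ?_⟩
        · rw [Complex.norm_real, Real.norm_eq_abs, sq_abs, h2]
        · funext y
          simp only [hbb, if_true, GA]
    rw [h1, wron hσ hT hs ht ((Real.sqrt ε : ℝ) : ℂ) β b (G := GA ε σ T (Sum.inr (a₀, a₀)))
      (H := GA ε σ T (bb (b, c))) rfl hβ2, vmv_smul]
    congr 1
    rw [norm_mul, norm_mul, norm_pow, norm_mul, mul_pow, mul_pow, hβ, Complex.norm_real,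
      Real.norm_eq_abs, sq_abs, Real.sq_sqrt hε.le]
    ring
  simp only [hq, smul_smul]
  rw [Fintype.sum_prod_type]
  simp only [Fintype.sum_bool]
  rw [Finset.smul_sum]
  refine Finset.sum_congr rfl fun b _ => ?_
  rw [← add_smul]
  congr 1
  field_simp
  ring

/-- Lemma B -/
theorem log_M2 {ε : ℝ} (hε : 0 < ε) (hT : ∀ a, ContDiffAt ℂ ω (T a) p)
    {B : Matrix (Fin N) (Fin N) ℂ} (hB : B.PosSemidef) :
    (cHess (fun y => Real.log (ε ^ 2 * (1 + ∑ a, ‖T a y‖ ^ 2))) p + B).PosSemidef := by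
  set F : Option (Fin (R + 1)) → Cm N → ℂ := fun c y => c.elim (ε : ℂ) fun a => ε * T a y with hF
  have h1 := lse_psd (F := F) (φ := fun _ _ => 0) (B := B) (z := p) (by
      intro c
      cases c
      · exact contDiffAt_const
      · exact contDiffAt_const.mul (hT _)) (fun _ => contDiffAt_const) (by
      intro c
      rw [C2.cHess_const, zero_add]
      exact hB) ⟨none, by simp [hF, hε.ne']⟩
  have e : (fun y => Real.log (∑ c, ‖F c y‖ ^ 2 * Real.exp ((fun _ _ => 0 :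
      Option (Fin (R + 1)) → Cm N → ℝ) c y))) =
      fun y => Real.log (ε ^ 2 * (1 + ∑ a, ‖T a y‖ ^ 2)) := by
    funext y
    congr 1
    rw [Fintype.sum_option]
    simp only [hF, Option.elim_none, Option.elim_some, Real.exp_zero, mul_one, norm_mul, mul_pow,
      Complex.norm_real, Real.norm_eq_abs, sq_abs]
    rw [mul_add, mul_one, Finset.mul_sum]
  rw [e] at h1
  exact h1

end flat

section glob

open Vale.Agent.P284.H248 Vale.Agent.P284.H206.K Vale.Agent.P284.H224.D Vale.Agent.P284.H661.D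
  Vale.Agent.P284.H608.D
open Vale.Agent.P272.K.QN (jm jm_holo)

variable {n R k : ℕ} {X : Type} [TopologicalSpace X] [ChartedSpace (Cm n) X]
  [IsManifold 𝓘(ℂ, Cm n) ω X] {W : Chart n X → Cm n → Matrix (Fin n) (Fin n) ℂ}
  {L : LineBundle n X} (P : LPart L) {s : Fin (R + 1) → Sec L k} {F : Cm R → Cm (R + 1)}
  {e : Chart n X} {x : X} {i : L.ι} {z : Cm R} {j : Fin R}

omit [IsManifold 𝓘(ℂ, Cm n) ω X] in
theorem nS_eq (s : Fin (R + 1) → Sec L k) (hi : x ∈ L.U i) :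
    nS P s x = (∑ a, ‖(s a).f i x‖ ^ 2) / HH P i x ^ k := by
  unfold nS
  rw [Finset.sum_div]
  exact Finset.sum_congr rfl fun a _ => GG_eq P (s a) hi

omit [IsManifold 𝓘(ℂ, Cm n) ω X] in
theorem nW_eq (s : Fin (R + 1) → Sec L k) (v : Cm (R + 1)) (hi : x ∈ L.U i) :
    nW P s v x = ((1 / 2) * ∑ a, ∑ b, ‖(s a).f i x * v b - (s b).f i x * v a‖ ^ 2) /
      HH P i x ^ k := by
  have hj := ixn_mem L x
  unfold nW
  rw [mul_div_assoc, Finset.sum_div]
  congr 1
  refine Finset.sum_congr rfl fun a _ => ?_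
  rw [Finset.sum_div]
  refine Finset.sum_congr rfl fun b _ => ?_
  rw [(s a).change _ i x hj hi, (s b).change _ i x hj hi, HH_change P hj hi]
  have h1 := norm_pos_iff.2 (L.ne_zero _ i x hj hi)
  have h2 := HH_pos P hi
  rw [mul_assoc, mul_assoc, ← mul_sub, norm_mul, norm_pow, mul_pow, mul_pow]
  have h3 : (‖L.g (ixn L x) i x‖ ^ k) ^ 2 = (‖L.g (ixn L x) i x‖ ^ 2) ^ k := by ring
  rw [h3]
  have h4 : (‖L.g (ixn L x) i x‖ ^ 2) ^ k ≠ 0 := by positivity
  field_simp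

/-- the frame functions of the sections in the coordinates `(y, ζ)` -/
def sg (s : Fin (R + 1) → Sec L k) (i : L.ι) (e : Chart n X) (a : Fin (R + 1))
    (ζ : Cm (n + 1)) : ℂ := (s a).f i (e.symm (Fin.init ζ))

/-- the components of `F` in the coordinates `(y, ζ)` -/
def tg (n : ℕ) (F : Cm R → Cm (R + 1)) (z : Cm R) (j : Fin R) (a : Fin (R + 1))
    (ζ : Cm (n + 1)) : ℂ := F (z + Pi.single j (ζ (Fin.last n))) a

/-- the weight -/
def ph (P : LPart L) (k : ℕ) (i : L.ι) (e : Chart n X) (ζ : Cm (n + 1)) : ℝ :=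
  -(k : ℝ) * Real.log (HH P i (e.symm (Fin.init ζ)))

omit [IsManifold 𝓘(ℂ, Cm n) ω X] in
theorem init_an (p : Cm (n + 1)) : ContDiffAt ℂ ω (fun ζ : Cm (n + 1) => (Fin.init ζ : Cm n)) p :=
  (initC (n := n)).contDiff.contDiffAt

theorem sg_an (hx : At e x) (hi : x ∈ L.U i) (a : Fin (R + 1)) (t : ℂ) :
    ContDiffAt ℂ ω (sg s i e a) (Fin.snoc (e x) t) := by
  have h1 := (s a).holo i e x hx hi
  have h2 := init_an (n := n) (Fin.snoc (e x) t)
  have h3 : (Fin.init (Fin.snoc (e x) t : Cm (n + 1)) : Cm n) = e x := Fin.init_snoc _ _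
  rw [← h3] at h1
  exact ContDiffAt.comp (𝕜 := ℂ) (n := ω) (f := fun ζ : Cm (n + 1) => (Fin.init ζ : Cm n))
    (Fin.snoc (e x) t) (g := fun z => (s a).f i (e.symm z)) h1 h2

theorem tg_an (hF : ∀ z, AnalyticAt ℂ F z) (z : Cm R) (j : Fin R) (a : Fin (R + 1))
    (p : Cm (n + 1)) : ContDiffAt ℂ ω (tg n F z j a) p := by
  have h1 : ContDiffAt ℂ ω (fun ζ : Cm (n + 1) => z + Pi.single j (ζ (Fin.last n))) p := by
    refine contDiffAt_const.add ?_
    exact (ContinuousLinearMap.single ℂ (fun _ : Fin R => ℂ) j).contDiff.contDiffAt.comp p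
      (contDiff_apply ℂ ℂ (Fin.last n)).contDiffAt
  have h2 : ContDiffAt ℂ ω (fun z' => F z' a) (z + Pi.single j (p (Fin.last n))) :=
    ((contDiffAt_pi.1 (hF _).contDiffAt) a)
  exact ContDiffAt.comp p (g := fun z' => F z' a) h2 h1

theorem ph_sm (hx : At e x) (hi : x ∈ L.U i) (t : ℂ) :
    ContDiffAt ℝ 2 (ph P k i e) (Fin.snoc (e x) t) := by
  have h1 := (logHH_smooth P hx hi).of_le INT.two_le_inf
  have h2 : ContDiffAt ℝ 2 (fun ζ : Cm (n + 1) => (Fin.init ζ : Cm n)) (Fin.snoc (e x) t) :=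
    (initL (n := n)).contDiff.contDiffAt
  have h3 : (Fin.init (Fin.snoc (e x) t : Cm (n + 1)) : Cm n) = e x := Fin.init_snoc _ _
  rw [← h3] at h1
  exact contDiffAt_const.mul (ContDiffAt.comp (𝕜 := ℝ) (n := 2)
    (f := fun ζ : Cm (n + 1) => (Fin.init ζ : Cm n)) (Fin.snoc (e x) t)
    (g := fun z => Real.log (HH P i (e.symm z))) h1 h2)

/-- the Jacobian of `init` -/
theorem jm_init (A : Matrix (Fin n) (Fin n) ℂ) (p : Cm (n + 1)) :
    (jm (fun ζ : Cm (n + 1) => (Fin.init ζ : Cm n)) p).transpose * A *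
      (jm (fun ζ : Cm (n + 1) => (Fin.init ζ : Cm n)) p).map (starRingEnd ℂ) = hatM A := by
  have h1 : ∀ a (b : Fin (n + 1)), jm (fun ζ : Cm (n + 1) => (Fin.init ζ : Cm n)) p a b =
      if b = a.castSucc then 1 else 0 := by
    intro a b
    have h2 : HasFDerivAt (𝕜 := ℂ) (fun ζ : Cm (n + 1) => (Fin.init ζ : Cm n) a)
        (ContinuousLinearMap.proj (R := ℂ) (φ := fun _ : Fin (n + 1) => ℂ) a.castSucc) p :=
      (ContinuousLinearMap.proj (R := ℂ) (φ := fun _ : Fin (n + 1) => ℂ) a.castSucc).hasFDerivAt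
    show dz b (fun ζ : Cm (n + 1) => (Fin.init ζ : Cm n) a) p = _
    rw [dz_of_holo h2.differentiableAt, h2.fderiv]
    show (Pi.single b (1 : ℂ) : Cm (n + 1)) a.castSucc = _
    rw [Pi.single_apply]
    simp [eq_comm]
  ext b c
  rw [Matrix.mul_apply]
  simp only [Matrix.mul_apply, Matrix.transpose_apply, Matrix.map_apply, h1]
  refine Fin.lastCases ?_ (fun b' => ?_) b <;> refine Fin.lastCases ?_ (fun c' => ?_) c
  · simp [(Fin.castSucc_lt_last _).ne']
  · simp [(Fin.castSucc_lt_last _).ne']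
  · simp [(Fin.castSucc_lt_last _).ne']
  · simp [Fin.castSucc_inj, Finset.sum_ite_eq, apply_ite (starRingEnd ℂ)]

theorem pj_ev_eq {ε : ℝ} (hx : At e x) (hi : x ∈ L.U i) :
    pj (lamE ε P s F) e z j =ᶠ[𝓝 (Fin.snoc (e x) 0)] fun ζ =>
      Real.log (M1 ε (sg s i e) (tg n F z j) ζ * Real.exp (ph P k i e ζ) +
        ε ^ 2 * (1 + ∑ a, ‖tg n F z j a ζ‖ ^ 2)) := by
  have h0 : ContinuousAt (fun ζ : Cm (n + 1) => (Fin.init ζ : Cm n)) (Fin.snoc (e x) 0) :=
    (initC (n := n)).continuous.continuousAt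
  have h3 : (Fin.init (Fin.snoc (e x) 0 : Cm (n + 1)) : Cm n) = e x := Fin.init_snoc _ _
  have h1 : Tendsto (fun ζ : Cm (n + 1) => (Fin.init ζ : Cm n)) (𝓝 (Fin.snoc (e x) 0))
      (𝓝 (e x)) := by
    have := h0.tendsto
    rwa [h3] at this
  filter_upwards [h1.eventually (U_evn hx hi)] with ζ hζ
  have hi' := hζ.2.2
  have hH := HH_pos P hi'
  have hexp : Real.exp (ph P k i e ζ) = (HH P i (e.symm (Fin.init ζ)) ^ k)⁻¹ := by
    unfold ph
    rw [neg_mul, Real.exp_neg, Real.exp_nat_mul, Real.exp_log hH]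
  unfold pj lamE
  rw [nW_eq P s _ hi', nS_eq P s hi', hexp]
  congr 1
  simp only [M1, sg, tg, nF]
  ring

theorem ew_eq (hF : ∀ z, AnalyticAt ℂ F z) (hx : At e x) (hi : x ∈ L.U i) {a₀ : Fin (R + 1)}
    (hs : (s a₀).f i x ≠ 0) (ht : F z a₀ ≠ 0) (b : Fin R) :
    ew (sg s i e) (tg n F z j) a₀ (Fin.snoc (e x) 0) b = Fin.snoc
      (fun p : Fin n => -fderiv ℂ (fun y => (s (a₀.succAbove b)).f i (e.symm y) /
        (s a₀).f i (e.symm y)) (e x) (Pi.single p 1))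
      (fderiv ℂ (fun z' => F z' (a₀.succAbove b) / F z' a₀) z (Pi.single j 1)) := by
  set p : Cm (n + 1) := Fin.snoc (e x) 0 with hp
  have hi0 : (Fin.init p : Cm n) = e x := Fin.init_snoc _ _
  have hl0 : p (Fin.last n) = 0 := by simp [hp]
  have hs' : sg s i e a₀ p ≠ 0 := by
    unfold sg; rw [hi0, hx.left_inv]; exact hs
  have ht' : tg n F z j a₀ p ≠ 0 := by
    unfold tg; rw [hl0]; simpa using ht
  have q1 : ContDiffAt ℂ ω (fun y => tg n F z j (a₀.succAbove b) y / tg n F z j a₀ y) p :=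
    ContDiffAt.div (tg_an hF z j _ p) (tg_an hF z j _ p) ht'
  have q2 : ContDiffAt ℂ ω (fun y => sg s i e (a₀.succAbove b) y / sg s i e a₀ y) p :=
    ContDiffAt.div (sg_an hx hi _ 0) (sg_an hx hi _ 0) hs'
  have qd : DifferentiableAt ℝ (fun y => tg n F z j (a₀.succAbove b) y / tg n F z j a₀ y -
      sg s i e (a₀.succAbove b) y / sg s i e a₀ y) p :=
    ((q1.sub q2).differentiableAt (by simp)).restrictScalars ℝ
  have g1 : ContDiffAt ℂ ω (fun y => (s (a₀.succAbove b)).f i (e.symm y) /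
      (s a₀).f i (e.symm y)) (e x) := by
    refine ContDiffAt.div ((s _).holo i e x hx hi) ((s _).holo i e x hx hi) ?_
    rw [hx.left_inv]; exact hs
  have g2 : ContDiffAt ℂ ω (fun z' => F z' (a₀.succAbove b) / F z' a₀) z :=
    ContDiffAt.div ((contDiffAt_pi.1 (hF z).contDiffAt) _) ((contDiffAt_pi.1 (hF z).contDiffAt) _) ht
  funext l
  refine Fin.lastCases ?_ (fun l' => ?_) l
  · rw [Fin.snoc_last]
    show dz (Fin.last n) _ (Fin.snoc (e x) 0) = _
    rw [dz_last (G := fun z' => F z' (a₀.succAbove b) / F z' a₀ -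
      sg s i e (a₀.succAbove b) p / sg s i e a₀ p) qd
      (((g2.sub contDiffAt_const).differentiableAt (by simp)).restrictScalars ℝ)
      (Eventually.of_forall fun t => ?_)]
    · have h1 : HasFDerivAt (𝕜 := ℂ) (fun z' => F z' (a₀.succAbove b) / F z' a₀ -
          sg s i e (a₀.succAbove b) p / sg s i e a₀ p)
          (fderiv ℂ (fun z' => F z' (a₀.succAbove b) / F z' a₀) z) z :=
        (g2.differentiableAt (by simp)).hasFDerivAt.sub_const _
      rw [dz_of_holo h1.differentiableAt, h1.fderiv]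
    · simp only [tg, sg, Fin.init_snoc, Fin.snoc_last, hi0]
  · rw [Fin.snoc_castSucc]
    show dz l'.castSucc _ (Fin.snoc (e x) 0) = _
    rw [dz_snoc qd]
    have h0 : (fun y' : Cm n => tg n F z j (a₀.succAbove b) (Fin.snoc y' 0) /
        tg n F z j a₀ (Fin.snoc y' 0) - sg s i e (a₀.succAbove b) (Fin.snoc y' 0) /
        sg s i e a₀ (Fin.snoc y' 0)) = fun y' => F z (a₀.succAbove b) / F z a₀ -
        (s (a₀.succAbove b)).f i (e.symm y') / (s a₀).f i (e.symm y') := by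
      funext y'
      simp [tg, sg, Fin.init_snoc]
    rw [h0]
    have h1 : HasFDerivAt (𝕜 := ℂ) (fun y' => F z (a₀.succAbove b) / F z a₀ -
        (s (a₀.succAbove b)).f i (e.symm y') / (s a₀).f i (e.symm y'))
        (-fderiv ℂ (fun y => (s (a₀.succAbove b)).f i (e.symm y) /
        (s a₀).f i (e.symm y)) (e x)) (e x) :=
      (g1.differentiableAt (by simp)).hasFDerivAt.const_sub _
    rw [dz_of_holo h1.differentiableAt, h1.fderiv]
    rfl

omit [IsManifold 𝓘(ℂ, Cm n) ω X] in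
theorem ofReal_smul_eq {m : ℕ} (r : ℝ) (M : Matrix (Fin m) (Fin m) ℂ) : ((r : ℝ) : ℂ) • M = r • M := by
  ext a b
  simp

theorem ph_hess (hx : At e x) (hi : x ∈ L.U i) {C : ℝ}
    (hC : ((C : ℂ) • W e (e x) - ((1 : ℝ) : ℂ) • Th P k e (e x)).PosSemidef) :
    (cHess (ph P k i e) (Fin.snoc (e x) 0) + (C : ℂ) • hatM (W e (e x))).PosSemidef := by
  have h3 : (Fin.init (Fin.snoc (e x) 0 : Cm (n + 1)) : Cm n) = e x := Fin.init_snoc _ _
  have h1 := (logHH_smooth P hx hi).of_le INT.two_le_inf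
  have h4 : ContDiffAt ℝ 2 (fun y => -(k : ℝ) * Real.log (HH P i (e.symm y))) (e x) :=
    contDiffAt_const.mul h1
  have h5 : cHess (fun y => -(k : ℝ) * Real.log (HH P i (e.symm y))) (e x) + (C : ℂ) • W e (e x) =
      (C : ℂ) • W e (e x) - ((1 : ℝ) : ℂ) • Th P k e (e x) := by
    rw [C2.cHess_const_mul _ h1, Th_eq P hx hi]
    simp only [Complex.ofReal_one, one_smul]
    push_cast
    rw [neg_smul]
    abel
  have h6 : ph P k i e = fun ζ => (fun y => -(k : ℝ) * Real.log (HH P i (e.symm y)))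
      ((fun ζ : Cm (n + 1) => (Fin.init ζ : Cm n)) ζ) := rfl
  rw [h6, Vale.Agent.P284.H383.cHess_comp_holo (g := fun y => -(k : ℝ) * Real.log
    (HH P i (e.symm y))) (Φ := fun ζ : Cm (n + 1) => (Fin.init ζ : Cm n))
    (by simp only [h3]; exact h4) (init_an _), jm_init]
  have h7 : hatM (cHess (fun y => -(k : ℝ) * Real.log (HH P i (e.symm y)))
      (Fin.init (Fin.snoc (e x) 0 : Cm (n + 1)))) + (C : ℂ) • hatM (W e (e x)) =
      hatM ((C : ℂ) • W e (e x) - ((1 : ℝ) : ℂ) • Th P k e (e x)) := by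
    rw [h3, ← h5]
    ext a b
    refine Fin.lastCases ?_ (fun a' => ?_) a <;> refine Fin.lastCases ?_ (fun b' => ?_) b <;>
      simp [Matrix.add_apply, Matrix.smul_apply]
  rw [h7, ← jm_init _ (Fin.snoc (e x) 0)]
  exact QN.posSemidefR hC _

theorem hat_psd {C : ℝ} (hC : 0 ≤ C) {A : Matrix (Fin n) (Fin n) ℂ} (hA : A.PosSemidef) :
    ((C : ℂ) • hatM A).PosSemidef := by
  rw [ofReal_smul_eq, ← jm_init _ 0]
  exact (QN.posSemidefR hA _).smul hC

/-- **E1b** -/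
theorem e1b : E1bStmt := by
  intro n R k X _ _ _ _ _ W hW L P s
  obtain ⟨C₀, hC₀, hC⟩ := Vale.Agent.P284.H366.D.exists_C0_Th hW P k 1 one_pos
  refine ⟨C₀, hC₀, fun C hCC F hF ε hε hε1 e x i z a₀ hx hi hs ht j => ?_⟩
  intro N₁ N₂ Q ev
  set p : Cm (n + 1) := Fin.snoc (e x) 0 with hp
  have hi0 : (Fin.init p : Cm n) = e x := Fin.init_snoc _ _
  have hl0 : p (Fin.last n) = 0 := by simp [hp]
  have hs' : sg s i e a₀ p ≠ 0 := by
    unfold sg; rw [hi0, hx.left_inv]; exact hs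
  have ht' : tg n F z j a₀ p ≠ 0 := by
    unfold tg; rw [hl0]; simpa using ht
  have hσ : ∀ a, ContDiffAt ℂ ω (sg s i e a) p := fun a => sg_an hx hi a 0
  have hT : ∀ a, ContDiffAt ℂ ω (tg n F z j a) p := fun a => tg_an hF z j a p
  have hphs := ph_sm P (k := k) hx hi 0
  set B : Matrix (Fin (n + 1)) (Fin (n + 1)) ℂ := (C : ℂ) • hatM (W e (e x)) with hB
  have hB1 : (cHess (ph P k i e) p + B).PosSemidef := ph_hess P hx hi (hC C hCC e x hx).1
  have hB2 : B.PosSemidef := hat_psd (hC₀.le.trans hCC) (hW.posDef e x hx).posSemidef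
  -- the two parts
  have hA := log_M1_low hε hσ hT hphs hB1 hs' ht'
  have hBB := log_M2 hε hT hB2
  set u : Cm (n + 1) → ℝ := fun ζ => M1 ε (sg s i e) (tg n F z j) ζ * Real.exp (ph P k i e ζ) with hu
  set v : Cm (n + 1) → ℝ := fun ζ => ε ^ 2 * (1 + ∑ a, ‖tg n F z j a ζ‖ ^ 2) with hv
  have hH := HH_pos P hi
  have hexp : Real.exp (ph P k i e p) = (HH P i x ^ k)⁻¹ := by
    unfold ph
    rw [neg_mul, Real.exp_neg, Real.exp_nat_mul, hi0, hx.left_inv, Real.exp_log hH]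
  have hM1 : M1 ε (sg s i e) (tg n F z j) p = (1 / 2) * ∑ a, ∑ b,
      ‖(s a).f i x * F z b - (s b).f i x * F z a‖ ^ 2 + ε * (∑ a, ‖(s a).f i x‖ ^ 2) *
        nF (F z) := by
    simp only [M1, sg, tg, nF, hi0, hl0, hx.left_inv, Pi.single_zero, add_zero]
  have huN : u p = N₁ := by
    simp only [hu, N₁]
    rw [nW_eq P s _ hi, nS_eq P s hi, hexp, hM1]
    ring
  have hvN : v p = N₂ := by
    simp only [hv, N₂, tg, nF, hl0, Pi.single_zero, add_zero]
  have hM1pos : 0 < M1 ε (sg s i e) (tg n F z j) p := by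
    have h1 : 0 < ∑ a, ‖sg s i e a p‖ ^ 2 :=
      Finset.sum_pos' (fun a _ => by positivity) ⟨a₀, Finset.mem_univ _, by positivity⟩
    have h2 : 0 < ∑ a, ‖tg n F z j a p‖ ^ 2 :=
      Finset.sum_pos' (fun a _ => by positivity) ⟨a₀, Finset.mem_univ _, by positivity⟩
    unfold M1
    have h3 : 0 ≤ ∑ a, ∑ b, ‖sg s i e a p * tg n F z j b p - sg s i e b p * tg n F z j a p‖ ^ 2 :=
      Finset.sum_nonneg fun a _ => Finset.sum_nonneg fun b _ => by positivity
    positivity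
  have hu0 : 0 < u p := by
    simp only [hu]
    positivity
  have hv0 : 0 < v p := by
    simp only [hv]
    have : 0 ≤ ∑ a, ‖tg n F z j a p‖ ^ 2 := Finset.sum_nonneg fun a _ => by positivity
    positivity
  have hus : ContDiffAt ℝ 2 u p := by
    have h1 : ContDiffAt ℝ 2 (fun ζ => ∑ c, ‖GA ε (sg s i e) (tg n F z j) c ζ‖ ^ 2 *
        Real.exp (ph P k i e ζ)) p := contDiffAt_u (fun c => GA_an hσ hT c) fun _ => hphs
    have h2 : u = fun ζ => ∑ c, ‖GA ε (sg s i e) (tg n F z j) c ζ‖ ^ 2 *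
        Real.exp (ph P k i e ζ) := by
      funext ζ
      rw [GA_sum hε.le]
    rw [h2]; exact h1
  have hvs : ContDiffAt ℝ 2 v p := by
    refine contDiffAt_const.mul (contDiffAt_const.add ?_)
    exact contDiffAt_sum_sq hT
  have hCC' := log_add_low hus hvs hu0 hv0 hBB
  have hKJ : KJ C W (lamE ε P s F) e (e x) z j =
      cHess (fun ζ => Real.log (u ζ + v ζ)) p + B := by
    unfold KJ HB
    rw [C2.cHess_congr (pj_ev_eq P hx hi)]
    exact add_comm _ _
  have hw : 0 ≤ u p / (u p + v p) := by positivity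
  have hfin := hCC'.add (hA.smul hw)
  have hev : ∀ b, ew (sg s i e) (tg n F z j) a₀ p b = ev b := fun b =>
    ew_eq hF hx hi hs ht b
  simp only [hev] at hfin
  rw [hKJ]
  convert hfin using 1
  have e1 : ε * (‖sg s i e a₀ p‖ ^ 2 * ‖tg n F z j a₀ p‖ ^ 2) ^ 2 /
      M1 ε (sg s i e) (tg n F z j) p ^ 2 = ε / Q ^ 2 := by
    have g1 : sg s i e a₀ p = (s a₀).f i x := by unfold sg; rw [hi0, hx.left_inv]
    have g2 : tg n F z j a₀ p = F z a₀ := by unfold tg; rw [hl0]; simp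
    have g3 : M1 ε (sg s i e) (tg n F z j) p = N₁ * HH P i x ^ k := by
      rw [← huN]
      simp only [hu]
      rw [hexp]
      field_simp
    have g4 : Q = N₁ / (GG P (s a₀) x * ‖F z a₀‖ ^ 2) := rfl
    rw [g1, g2, g3, g4, GG_eq P (s a₀) hi]
    have g5 : 0 < N₁ := by rw [← huN]; exact hu0
    have g6 := norm_pos_iff.2 hs
    have g7 := norm_pos_iff.2 ht
    field_simp
  rw [ofReal_smul_eq, e1, ← huN, ← hvN, mul_smul, smul_sub]
  abel

end glob

end Vale.Agent.P284.H451.D
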