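import Vale.Agent.P284.H451.D.LeafA
import Vale.Agent.P284.H451.D.Sard
import Vale.Agent.P284.H885.D.Loc
import Vale.Agent.P284.H691.D.E7a

/-!
# P284, project D (helper451), LEAF: the mass of the leaf

The sub-mean value inequality of `H885.D.loc` for `f = b(|R₀/R₀(x') - 1|²) · kap (1 + ν log |σ_{a₀}|²/..)`.
-/

open scoped Manifold ContDiff ComplexOrder ComplexConjugate Topology Matrix
open MeasureTheory Set Filter Metric

noncomputable section

namespace Vale.Agent.P284.H451.D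

open Vale.Agent.P272.K Vale.Agent.P284.H395 Vale.Agent.P284.H66.S7 Vale.Agent.P284.H691.D
open Vale.Agent.P284.H885.D hiding kap

/-- a smooth kernel with support in the unit ball -/
theorem exists_kernel (q : ℕ) : ∃ κ : Cm q → ℝ, ContDiff ℝ ∞ κ ∧ (∀ Z, 0 ≤ κ Z) ∧
    HasCompactSupport κ ∧ ∫ Z, κ Z = 1 ∧ (∀ Z, 1 ≤ ‖Z‖ → κ Z = 0) ∧
    ∃ C : ℝ, 0 < C ∧ ∀ Z, κ Z ≤ C := by
  set f : ContDiffBump (0 : Cm q) := ⟨1 / 2, 1, by norm_num, by norm_num⟩ with hf
  refine ⟨f.normed volume, f.contDiff_normed, f.nonneg_normed, f.hasCompactSupport_normed,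
    f.integral_normed, fun Z hZ => ?_, ?_⟩
  · by_contra h
    have h1 : Z ∈ Function.support (f.normed volume) := h
    rw [f.support_normed_eq] at h1
    rw [mem_ball_zero_iff] at h1
    have : f.rOut = 1 := rfl
    linarith
  · have hc : Continuous (f.normed volume : Cm q → ℝ) := f.continuous_normed
    obtain ⟨C, hC⟩ := f.hasCompactSupport_normed.exists_bound_of_continuous hc
    refine ⟨max C 1, lt_max_of_lt_right one_pos, fun Z => ?_⟩
    exact ((le_abs_self _).trans (hC Z)).trans (le_max_left _ _)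

/-- the profile: `1` at `0`, `0` from `1/2` on -/
def bb (t : ℝ) : ℝ := Real.smoothTransition (2 - 4 * t)

theorem bb_smooth : ContDiff ℝ ∞ bb :=
  Real.smoothTransition.contDiff.comp (contDiff_const.sub (contDiff_const.mul contDiff_id))

theorem bb_nonneg (t : ℝ) : 0 ≤ bb t := Real.smoothTransition.nonneg _

theorem bb_le (t : ℝ) : bb t ≤ 1 := Real.smoothTransition.le_one _

theorem bb_zero : bb 0 = 1 := Real.smoothTransition.one_of_one_le (by norm_num)

theorem bb_off {t : ℝ} (ht : 1 / 2 ≤ t) : bb t = 0 :=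
  Real.smoothTransition.zero_of_nonpos (by linarith)

theorem surj_eventually {n R : ℕ} {G : Cm n → Cm R} {p : Cm n} (hG : AnalyticAt ℂ G p)
    (h : Function.Surjective (fderiv ℂ G p)) :
    ∀ᶠ y in 𝓝 p, Function.Surjective (fderiv ℂ G y) := by
  obtain ⟨ξ, hξ⟩ := (surj_iff_det _).1 h
  have hc : ContinuousAt (fun y => (Matrix.of fun i j => fderiv ℂ G y (ξ j) i).det) p := by
    have h1 : ContinuousAt (fderiv ℂ G) p := hG.fderiv.continuousAt
    refine ContinuousAt.comp (g := fun M : Matrix (Fin R) (Fin R) ℂ => M.det)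
      (Continuous.matrix_det continuous_id).continuousAt ?_
    refine continuousAt_pi.2 fun i => continuousAt_pi.2 fun j => ?_
    have h2 : ContinuousAt (fun y => fderiv ℂ G y (ξ j)) p := h1.clm_apply continuousAt_const
    exact (continuousAt_pi.1 h2) i
  filter_upwards [hc.eventually_ne hξ] with y hy
  exact (surj_iff_det _).2 ⟨ξ, hy⟩

theorem rat_an {n R : ℕ} {σ : Cm n → Cm (R + 1)} {a₀ : Fin (R + 1)} {p : Cm n}
    (h : AnalyticAt ℂ σ p) (h0 : σ p a₀ ≠ 0) : AnalyticAt ℂ (rat σ a₀) p := by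
  have h1 : ∀ a, AnalyticAt ℂ (fun q => σ q a) p := fun a => analyticAt_pi_iff.1 h a
  exact analyticAt_pi_iff.2 fun b => (h1 _).div (h1 _) h0

/-- `det (J Jᴴ) ≠ 0` implies that `J` is onto -/
theorem surj_of_DT {n R : ℕ} {G : Cm n → Cm R} {p : Cm n} (hG : AnalyticAt ℂ G p)
    (h : (JF G p * (JF G p)ᴴ).det.re ≠ 0) : Function.Surjective (fderiv ℂ G p) := by
  have h1 : (JF G p * (JF G p)ᴴ).det ≠ 0 := by
    intro h0; rw [h0] at h; exact h rfl
  have h2 : IsUnit (JF G p * (JF G p)ᴴ).det := isUnit_iff_ne_zero.2 h1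
  intro w
  refine ⟨(JF G p)ᴴ *ᵥ ((JF G p * (JF G p)ᴴ)⁻¹ *ᵥ w), ?_⟩
  rw [← JF_mulVec (holV_of_an hG), Matrix.mulVec_mulVec, Matrix.mulVec_mulVec,
    Matrix.mul_nonsing_inv _ h2, Matrix.one_mulVec]

theorem leaf : LeafStmt := by
  intro n R k hR hRn hk r M Cs hr hM hCs
  obtain ⟨c₀, hc₀, hloc⟩ := loc R (n - R)
  obtain ⟨κ, hκs, hκ0, hκc, hκ1, hκ2, Cκ, hCκ, hκC⟩ := exists_kernel R
  have hR0 : (0 : ℝ) < R := by exact_mod_cast hR
  have hk0 : (0 : ℝ) < k := by exact_mod_cast hk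
  have hkap : 0 < kap 1 := kap_pos one_pos
  set K : ℝ := 2 * Cκ * M ^ (1 / (R : ℝ)) * (4 * Cs) ^ (2 / ((k : ℝ) * R)) with hK
  have hKpos : 0 < K := by positivity
  refine ⟨c₀ * r ^ (2 * (n - R)) * kap 1 / K, by positivity, ?_⟩
  intro σ a₀ hf x' hσ hσb h0 hreg hdat
  set G := rat σ a₀ with hG
  set R0 : Cm n → ℂ := fun q => σ q a₀ * hf q ^ k with hR0def
  have hx' : x' ∈ closedBall x' r := mem_closedBall_self hr.le
  by_cases hz : R0 x' = 0
  · refine ⟨1, one_pos, Eventually.of_forall fun ε g hg hg0 _ => ?_⟩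
    have e1 : ‖σ x' a₀ * hf x' ^ k‖ = 0 := by
      show ‖R0 x'‖ = 0
      rw [hz, norm_zero]
    rw [e1, Real.zero_rpow (by positivity), mul_zero]
    exact setIntegral_nonneg measurableSet_closedBall hg0
  -- the constants
  set h' : ℝ := ‖σ x' a₀‖ ^ 2 with hh'
  have hh'0 : 0 < h' := by positivity
  set ν : ℝ := 1 / (1 + |Real.log (Cs ^ 2 / h')|) with hν
  have hν0 : 0 < ν := by positivity
  set cc : ℝ := 1 - ν * Real.log h' with hcc
  set U : Cm n → ℝ := fun p => if σ p a₀ = 0 then 0 else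
    kap (cc + ν * Real.log (‖σ p a₀‖ ^ 2)) with hU
  set gg : Cm n → ℂ := fun p => R0 p / R0 x' - 1 with hgg
  set f : Cm n → ℝ := fun p => bb (‖gg p‖ ^ 2) * U p with hfdef
  set δ : ℝ := Real.sqrt (h' * Real.exp (-(1 / ν))) with hδ
  have hδ0 : 0 < δ := Real.sqrt_pos.2 (by positivity)
  have hδ2 : δ ^ 2 = h' * Real.exp (-(1 / ν)) := Real.sq_sqrt (by positivity)
  have hU0 : ∀ p, 0 ≤ U p := by
    intro p
    simp only [hU]
    split_ifs
    · exact le_rfl
    · exact kap_nonneg _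
  have hUδ : ∀ p, ‖σ p a₀‖ < δ → U p = 0 := by
    intro p hp
    simp only [hU]
    split_ifs with h
    · rfl
    · apply kap_of_nonpos
      have h1 : 0 < ‖σ p a₀‖ := norm_pos_iff.2 h
      have h2 : ‖σ p a₀‖ ^ 2 < δ ^ 2 := by
        apply pow_lt_pow_left₀ hp h1.le (by norm_num)
      have h3 : Real.log (‖σ p a₀‖ ^ 2) < Real.log h' - 1 / ν := by
        have := Real.log_lt_log (by positivity) h2
        rw [hδ2, Real.log_mul hh'0.ne' (Real.exp_pos _).ne', Real.log_exp] at this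
        linarith
      have h4 : ν * Real.log (‖σ p a₀‖ ^ 2) < ν * (Real.log h' - 1 / ν) :=
        mul_lt_mul_of_pos_left h3 hν0
      have h5 : ν * (Real.log h' - 1 / ν) = ν * Real.log h' - 1 := by
        field_simp
      rw [hcc]
      linarith
  have hU2 : ∀ p ∈ closedBall x' r, U p ≤ 2 := by
    intro p hp
    simp only [hU]
    split_ifs with h
    · norm_num
    · have h1 : 0 < ‖σ p a₀‖ := norm_pos_iff.2 h
      have h2 : ν * (Real.log (‖σ p a₀‖ ^ 2) - Real.log h') ≤ 1 := by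
        have h3 : Real.log (‖σ p a₀‖ ^ 2) - Real.log h' ≤ |Real.log (Cs ^ 2 / h')| := by
          rw [Real.log_div (by positivity) hh'0.ne']
          refine le_trans ?_ (le_abs_self _)
          have := Real.log_le_log (by positivity)
            (pow_le_pow_left₀ h1.le (hσb p hp a₀) 2)
          linarith
        have h4 : ν * (Real.log (‖σ p a₀‖ ^ 2) - Real.log h') ≤ ν * |Real.log (Cs ^ 2 / h')| :=
          mul_le_mul_of_nonneg_left h3 hν0.le
        refine h4.trans ?_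
        rw [hν, div_mul_eq_mul_div, one_mul, div_le_one (by positivity)]
        linarith
      have h5 : cc + ν * Real.log (‖σ p a₀‖ ^ 2) ≤ 2 := by
        rw [hcc]; linarith
      exact (kap_mono h5).trans (kap_le (by norm_num))
  have hUx : U x' = kap 1 := by
    simp only [hU]
    rw [if_neg h0]
    congr 1
    rw [hcc]; ring
  have hfx : f x' = kap 1 := by
    simp only [hfdef, hgg]
    rw [div_self hz, sub_self, norm_zero, zero_pow (by norm_num), bb_zero, one_mul, hUx]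
  -- the good set
  set N : Set (Cm n) := {p | AnalyticAt ℂ σ p ∧ σ p a₀ ≠ 0 ∧
    Function.Surjective (fderiv ℂ G p)} with hN
  have hNo : IsOpen N := by
    rw [isOpen_iff_mem_nhds]
    rintro p ⟨h1, h2, h3⟩
    have h4 : ContinuousAt (fun q => σ q a₀) p := (continuousAt_pi.1 h1.continuousAt) a₀
    filter_upwards [h1.eventually_analyticAt, h4.eventually_ne h2,
      surj_eventually (rat_an h1 h2) h3] with q g1 g2 g3
    exact ⟨g1, g2, g3⟩
  have hxN : x' ∈ N := ⟨hσ x' hx', h0, hreg x' hx' h0 rfl⟩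
  -- the good points
  have hgood : ∀ y ∈ N, y ∈ closedBall x' r → AnalyticAt ℂ G y ∧ ContDiffAt ℝ ∞ f y ∧ 0 ≤ f y ∧
      ∀ ξ : Cm n, fderiv ℂ G y ξ = 0 →
        0 ≤ (∑ j, ∑ l, cHess f y j l * ξ j * conj (ξ l)).re := by
    rintro y ⟨h1, h2, h3⟩ hy
    obtain ⟨d1, d2, -⟩ := hdat y hy h2 h3
    have hsa : AnalyticAt ℂ (fun q => σ q a₀) y := analyticAt_pi_iff.1 h1 a₀
    have hR0a : AnalyticAt ℂ R0 y := hsa.mul (d1.pow k)
    have hgga : AnalyticAt ℂ gg y := by
      have : AnalyticAt ℂ (fun p => R0 p / R0 x' - 1) y :=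
        (hR0a.div analyticAt_const hz).sub analyticAt_const
      exact this
    have hfe : f =ᶠ[𝓝 y] fun p => bb (‖gg p‖ ^ 2) * kap (cc + ν * Real.log (‖σ p a₀‖ ^ 2)) := by
      filter_upwards [hsa.continuousAt.eventually_ne h2] with p hp
      simp only [hfdef, hU]
      rw [if_neg hp]
    have hsm : ContDiffAt ℝ ∞
        (fun p => bb (‖gg p‖ ^ 2) * kap (cc + ν * Real.log (‖σ p a₀‖ ^ 2))) y := by
      have g1 : ContDiffAt ℝ ∞ (fun p => ‖gg p‖ ^ 2) y :=
        ((hgga.contDiffAt.restrict_scalars ℝ).of_le le_top).norm_sq ℝ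
      have g2 : ContDiffAt ℝ ∞ (fun p => Real.log (‖σ p a₀‖ ^ 2)) y :=
        (((hsa.contDiffAt.restrict_scalars ℝ).of_le le_top).norm_sq ℝ).log (by positivity)
      have g3 : ContDiffAt ℝ ∞ (fun p => cc + ν * Real.log (‖σ p a₀‖ ^ 2)) y :=
        contDiffAt_const.add (contDiffAt_const.mul g2)
      exact (ContDiffAt.comp y (g := bb) bb_smooth.contDiffAt g1).mul
        (ContDiffAt.comp y (g := kap) contDiff_kap.contDiffAt g3)
    refine ⟨rat_an h1 h2, hsm.congr_of_eventuallyEq hfe, mul_nonneg (bb_nonneg _) (hU0 _), ?_⟩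
    intro ξ hξ
    have e1 : cHess f y = cHess (fun p => bb (‖gg p‖ ^ 2) *
        kap (cc + ν * Real.log (‖σ p a₀‖ ^ 2))) y := C2.cHess_congr hfe
    rw [e1]
    refine weight_psh bb_smooth bb_nonneg hgga.contDiffAt hsa.contDiffAt h2 ν cc ?_
    have e2 : fderiv ℂ R0 y ξ = 0 := d2 ξ hξ
    have e3 : HasFDerivAt gg ((R0 x')⁻¹ • fderiv ℂ R0 y) y := by
      have := (hR0a.differentiableAt.hasFDerivAt.const_mul (R0 x')⁻¹).sub_const (1 : ℂ)
      refine this.congr_of_eventuallyEq (Eventually.of_forall fun p => ?_)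
      simp only [hgg]
      rw [div_eq_inv_mul]
    rw [e3.fderiv]
    simp [e2]
  -- off the good set
  set Kc : Set (Cm n) := closedBall x' r ∩ (fun p => ‖σ p a₀‖) ⁻¹' Ici δ with hKc
  have hσc : ContinuousOn (fun p => ‖σ p a₀‖) (closedBall x' r) := fun p hp =>
    ((continuousAt_pi.1 (hσ p hp).continuousAt) a₀).norm.continuousWithinAt
  have hKcc : IsCompact Kc := by
    have hcl : IsClosed Kc := hσc.preimage_isClosed_of_isClosed isClosed_closedBall isClosed_Ici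
    exact (isCompact_closedBall x' r).of_isClosed_subset hcl inter_subset_left
  set S : Set (Cm n) := Kc ∩ Nᶜ with hS
  have hSc : IsCompact S := hKcc.inter_right hNo.isClosed_compl
  have hKne : ∀ y ∈ Kc, σ y a₀ ≠ 0 := by
    intro y hy h
    have h1 : δ ≤ ‖σ y a₀‖ := hy.2
    rw [h, norm_zero] at h1
    linarith
  have hSne : ∀ y ∈ S, 0 < ‖G y - G x'‖ := by
    intro y hy
    rw [norm_pos_iff, sub_ne_zero]
    intro h
    exact hy.2 ⟨hσ y hy.1.1, hKne y hy.1, hreg y hy.1.1 (hKne y hy.1) h⟩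
  obtain ⟨η, hη, hηS⟩ : ∃ η : ℝ, 0 < η ∧ ∀ y ∈ S, η ≤ ‖G y - G x'‖ := by
    rcases S.eq_empty_or_nonempty with h | h
    · exact ⟨1, one_pos, fun y hy => absurd hy (by rw [h]; exact Set.notMem_empty y)⟩
    · obtain ⟨y₀, hy₀, hmin⟩ := hSc.exists_isMinOn h (f := fun y => ‖G y - G x'‖)
        (fun y hy => (((rat_an (hσ y hy.1.1) (hKne y hy.1)).continuousAt).sub
          continuousAt_const).norm.continuousWithinAt)
      exact ⟨_, hSne y₀ hy₀, fun y hy => hmin hy⟩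
  have hoff : ∃ ε₀ : ℝ, 0 < ε₀ ∧ ∀ ε : ℝ, 0 < ε → ε < ε₀ → ∀ y ∈ closedBall x' r, y ∉ N →
      ∀ᶠ ζ in 𝓝 y, κ (ε⁻¹ • (G ζ - G x')) * f ζ = 0 := by
    refine ⟨η, hη, fun ε hε hεη y hy hyN => ?_⟩
    have hca : ContinuousAt (fun p => ‖σ p a₀‖) y :=
      ((continuousAt_pi.1 (hσ y hy).continuousAt) a₀).norm
    by_cases hyδ : ‖σ y a₀‖ < δ
    · filter_upwards [hca.eventually_lt_const hyδ] with ζ hζ
      simp only [hfdef]
      rw [hUδ ζ hζ, mul_zero, mul_zero]
    · have hyK : y ∈ Kc := ⟨hy, not_lt.1 hyδ⟩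
      have hyS : y ∈ S := ⟨hyK, hyN⟩
      have h1 := hηS y hyS
      have h2 : ContinuousAt (fun ζ => ‖G ζ - G x'‖) y :=
        ((rat_an (hσ y hy) (hKne y hyK)).continuousAt.sub continuousAt_const).norm
      filter_upwards [h2.eventually_const_lt (hεη.trans_le h1)] with ζ hζ
      rw [hκ2 _ ?_, zero_mul]
      rw [norm_smul, norm_inv, Real.norm_eq_abs, abs_of_pos hε, ← div_eq_inv_mul,
        one_le_div hε]
      exact hζ.le
  have key := hloc n (by omega) κ hκs hκ0 hκc hκ1 G f N x' r hr hNo hxN hgood hoff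
    (hreg x' hx' h0 rfl)
  refine ⟨δ, hδ0, ?_⟩
  filter_upwards [key, self_mem_nhdsWithin] with ε hε1 hε0
  have hε : (0 : ℝ) < ε := hε0
  intro g hgi hg0 hgb
  set T : ℝ := (4 * Cs / ‖R0 x'‖) ^ (2 / ((k : ℝ) * R)) with hT
  have hR0x : 0 < ‖R0 x'‖ := norm_pos_iff.2 hz
  -- the pointwise bound
  have hpt : ∀ y ∈ closedBall x' r, ε⁻¹ ^ (2 * R) * κ (ε⁻¹ • (G y - G x')) * f y *
      (JF G y * (JF G y)ᴴ).det.re ≤ 2 * Cκ * M ^ (1 / (R : ℝ)) * T * g y := by
    intro y hy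
    have hrhs : 0 ≤ 2 * Cκ * M ^ (1 / (R : ℝ)) * T * g y :=
      mul_nonneg (by positivity) (hg0 y hy)
    set D : ℝ := (JF G y * (JF G y)ᴴ).det.re with hD
    have hDn : 0 ≤ D := by rw [hD, ← DT_eq']; exact DT_nonneg _
    by_cases hf0 : f y = 0
    · rw [hf0, mul_zero, zero_mul]; exact hrhs
    by_cases hκy : κ (ε⁻¹ • (G y - G x')) = 0
    · rw [hκy, mul_zero, zero_mul, zero_mul]; exact hrhs
    by_cases hD0 : D = 0
    · rw [hD0, mul_zero]; exact hrhs
    have hDpos : 0 < D := lt_of_le_of_ne hDn (Ne.symm hD0)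
    have hUy : U y ≠ 0 := fun h => hf0 (by simp only [hfdef]; rw [h, mul_zero])
    have hby : bb (‖gg y‖ ^ 2) ≠ 0 := fun h => hf0 (by simp only [hfdef]; rw [h, zero_mul])
    have hδy : δ ≤ ‖σ y a₀‖ := by
      by_contra h
      exact hUy (hUδ y (not_le.1 h))
    have hsy : σ y a₀ ≠ 0 := hKne y ⟨hy, hδy⟩
    have hεy : ‖G y - G x'‖ ≤ ε := by
      by_contra h
      apply hκy
      apply hκ2
      rw [norm_smul, norm_inv, Real.norm_eq_abs, abs_of_pos hε, ← div_eq_inv_mul, one_le_div hε]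
      exact (not_le.1 h).le
    have hGa : AnalyticAt ℂ G y := rat_an (hσ y hy) hsy
    have hsur := surj_of_DT hGa hD0
    obtain ⟨-, -, d3⟩ := hdat y hy hsy hsur
    -- lower bound of `hf`
    have hgg2 : ‖gg y‖ ^ 2 < 1 / 2 := by
      by_contra h
      exact hby (bb_off (not_lt.1 h))
    have hR0y : ‖R0 x'‖ / 4 ≤ ‖R0 y‖ := by
      have h1 : ‖gg y‖ ≤ 3 / 4 := by
        nlinarith [norm_nonneg (gg y)]
      have h2 : (1 : ℝ) ≤ ‖R0 y / R0 x'‖ + ‖gg y‖ := by
        have h3 : (1 : ℂ) = R0 y / R0 x' - gg y := by simp only [hgg]; ring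
        calc (1 : ℝ) = ‖(1 : ℂ)‖ := norm_one.symm
          _ = ‖R0 y / R0 x' - gg y‖ := by rw [← h3]
          _ ≤ _ := norm_sub_le _ _
      rw [norm_div] at h2
      have h4 : 1 / 4 ≤ ‖R0 y‖ / ‖R0 x'‖ := by linarith
      rw [le_div_iff₀ hR0x] at h4
      linarith
    have hfk : ‖R0 x'‖ / (4 * Cs) ≤ ‖hf y‖ ^ k := by
      have h1 : ‖R0 y‖ = ‖σ y a₀‖ * ‖hf y‖ ^ k := by
        simp only [hR0def]
        rw [norm_mul, norm_pow]
      have h2 : ‖σ y a₀‖ * ‖hf y‖ ^ k ≤ Cs * ‖hf y‖ ^ k :=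
        mul_le_mul_of_nonneg_right (hσb y hy a₀) (by positivity)
      rw [div_le_iff₀ (by positivity)]
      rw [h1] at hR0y
      linarith
    have hfpos : 0 < ‖hf y‖ := by
      have : 0 < ‖hf y‖ ^ k := lt_of_lt_of_le (by positivity) hfk
      by_contra h
      have h1 : ‖hf y‖ = 0 := le_antisymm (not_lt.1 h) (norm_nonneg _)
      rw [h1, zero_pow (by omega)] at this
      exact lt_irrefl _ this
    -- `D^(1/R) ≤ M^(1/R) T`
    have hD1 : D ^ (1 / (R : ℝ)) ≤ M ^ (1 / (R : ℝ)) * T := by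
      have h1 : D ≤ M * (‖hf y‖ ^ 2)⁻¹ := by
        rw [← div_eq_mul_inv, le_div_iff₀ (by positivity)]
        linarith [d3]
      have h2 : (‖hf y‖ ^ 2)⁻¹ ≤ (4 * Cs / ‖R0 x'‖) ^ (2 / (k : ℝ)) := by
        have h3 : (‖hf y‖ ^ k)⁻¹ ≤ 4 * Cs / ‖R0 x'‖ := by
          rw [inv_le_comm₀ (by positivity) (by positivity), inv_div]
          exact hfk
        have h4 : (‖hf y‖ ^ 2)⁻¹ = ((‖hf y‖ ^ k)⁻¹) ^ (2 / (k : ℝ)) := by
          rw [← Real.rpow_natCast ‖hf y‖ k, ← Real.rpow_neg hfpos.le, ← Real.rpow_mul hfpos.le,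
            ← Real.rpow_natCast ‖hf y‖ 2, ← Real.rpow_neg hfpos.le]
          congr 1
          push_cast
          field_simp
        rw [h4]
        exact Real.rpow_le_rpow (by positivity) h3 (by positivity)
      have h5 : D ≤ M * (4 * Cs / ‖R0 x'‖) ^ (2 / (k : ℝ)) :=
        h1.trans (mul_le_mul_of_nonneg_left h2 hM.le)
      calc D ^ (1 / (R : ℝ)) ≤ (M * (4 * Cs / ‖R0 x'‖) ^ (2 / (k : ℝ))) ^ (1 / (R : ℝ)) :=
            Real.rpow_le_rpow hDn h5 (by positivity)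
        _ = M ^ (1 / (R : ℝ)) * T := by
            rw [Real.mul_rpow hM.le (by positivity), ← Real.rpow_mul (by positivity), hT]
            congr 2
            field_simp
    have hD2 : D = D ^ (((R : ℝ) - 1) / R) * D ^ (1 / (R : ℝ)) := by
      rw [← Real.rpow_add hDpos]
      have : ((R : ℝ) - 1) / R + 1 / R = 1 := by field_simp; ring
      rw [this, Real.rpow_one]
    have hgy := hgb y hy hδy hεy
    have hfy : f y ≤ 2 := by
      simp only [hfdef]
      calc bb (‖gg y‖ ^ 2) * U y ≤ 1 * 2 :=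
            mul_le_mul (bb_le _) (hU2 y hy) (hU0 y) (by norm_num)
        _ = 2 := by norm_num
    have hf0' : 0 ≤ f y := mul_nonneg (bb_nonneg _) (hU0 _)
    have hDa : 0 ≤ D ^ (((R : ℝ) - 1) / R) := Real.rpow_nonneg hDn _
    calc ε⁻¹ ^ (2 * R) * κ (ε⁻¹ • (G y - G x')) * f y * D
        ≤ ε⁻¹ ^ (2 * R) * Cκ * 2 * (D ^ (((R : ℝ) - 1) / R) * (M ^ (1 / (R : ℝ)) * T)) := by
          have e1 : κ (ε⁻¹ • (G y - G x')) * f y ≤ Cκ * 2 :=
            mul_le_mul (hκC _) hfy hf0' hCκ.le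
          have e2 : D ≤ D ^ (((R : ℝ) - 1) / R) * (M ^ (1 / (R : ℝ)) * T) := by
            conv_lhs => rw [hD2]
            exact mul_le_mul_of_nonneg_left hD1 hDa
          have e3 : (κ (ε⁻¹ • (G y - G x')) * f y) * D ≤
              (Cκ * 2) * (D ^ (((R : ℝ) - 1) / R) * (M ^ (1 / (R : ℝ)) * T)) :=
            mul_le_mul e1 e2 hDn (by positivity)
          have e4 := mul_le_mul_of_nonneg_left e3 (show (0 : ℝ) ≤ ε⁻¹ ^ (2 * R) by positivity)
          calc _ = ε⁻¹ ^ (2 * R) * ((κ (ε⁻¹ • (G y - G x')) * f y) * D) := by ring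
            _ ≤ _ := e4
            _ = _ := by ring
      _ = 2 * Cκ * M ^ (1 / (R : ℝ)) * T * (ε⁻¹ ^ (2 * R) * D ^ (((R : ℝ) - 1) / R)) := by ring
      _ ≤ 2 * Cκ * M ^ (1 / (R : ℝ)) * T * g y :=
          mul_le_mul_of_nonneg_left hgy (by positivity)
  -- integrate
  have hint : c₀ * r ^ (2 * (n - R)) * f x' ≤
      2 * Cκ * M ^ (1 / (R : ℝ)) * T * ∫ p in closedBall x' r, g p := by
    refine hε1.trans ?_
    rw [← integral_const_mul]
    refine integral_mono_of_nonneg ?_ (hgi.const_mul _) ?_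
    · refine ae_restrict_of_forall_mem measurableSet_closedBall fun y hy => ?_
      have h1 : 0 ≤ (JF G y * (JF G y)ᴴ).det.re := by rw [← DT_eq']; exact DT_nonneg _
      have h2 : 0 ≤ f y := mul_nonneg (bb_nonneg _) (hU0 _)
      exact mul_nonneg (mul_nonneg (mul_nonneg (by positivity) (hκ0 _)) h2) h1
    · exact ae_restrict_of_forall_mem measurableSet_closedBall hpt
  rw [hfx] at hint
  have hTeq : T = (4 * Cs) ^ (2 / ((k : ℝ) * R)) / ‖R0 x'‖ ^ (2 / ((k : ℝ) * R)) :=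
    Real.div_rpow (by positivity) (by positivity) _
  show c₀ * r ^ (2 * (n - R)) * kap 1 / K * ‖R0 x'‖ ^ (2 / ((k : ℝ) * R)) ≤ _
  have hpp : 0 < ‖R0 x'‖ ^ (2 / ((k : ℝ) * R)) := Real.rpow_pos_of_pos hR0x _
  rw [hTeq] at hint
  rw [div_mul_eq_mul_div, div_le_iff₀ hKpos]
  have h1 := mul_le_mul_of_nonneg_right hint hpp.le
  refine h1.trans (le_of_eq ?_)
  rw [hK]
  field_simp

end Vale.Agent.P284.H451.D
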